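import Vale.Agent.P153DG.Sol
import Vale.Agent.P153D.Grn
import Vale.Agent.P153.H212.Pos
import Vale.Agent.P153.R2.OBSV.Holo

/-!
The Green function gives the variance.
-/

set_option autoImplicit false

namespace Vale.Agent.P153DG

open Filter Topology Set MeasureTheory
open Vale.Agent.P153D Vale.Agent.P153.H212 Vale.Agent.P153.R2
open Vale.Agent.P153.R2.KAPV (HP HP_open Unif pot)

theorem mem_e {S : Set ℂ} {z : ℝ × ℝ} : z ∈ e '' S ↔ KAPV.toC z ∈ S :=
  ⟨fun ⟨_, h, k⟩ => k ▸ h, fun h => ⟨_, h, rfl⟩⟩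

theorem unif_of {Φ : ℂ ≃ₜ ℂ} {ψ : ℂ → ℂ} (h : IsConformal Φ ψ) :
    Unif (e '' dom Φ) ψ (Function.invFunOn ψ HP) := by
  have i : ψ '' HP = dom Φ := h.2.1.image_eq
  rw [← i]
  exact ⟨h.1, fun w hw => mem_e.2 (mem_image_of_mem ψ hw),
    fun z hz => (OBSV.inv_diff HP_open h.1 h.2.1.injOn).differentiableAt
      ((OBSV.isOpen_image HP_open h.1 h.2.1.injOn).mem_nhds (mem_e.1 hz)),
    fun z hz => OBSV.inv_mem (mem_e.1 hz), fun z hz => OBSV.f_inv (mem_e.1 hz),
    fun w hw => OBSV.inv_f h.2.1.injOn hw⟩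

theorem dbl {D : Set ℂ} (ψ : ℂ → ℂ) {f g : ℂ → ℝ} (hf : TestOn D f) (hg : TestOn D g) :
    (∫ z in D, ∫ w in D, f z * gD ψ z w * g w) =
      ∫ z, pot (Function.invFunOn ψ HP) (g ∘ e.symm) z * (f ∘ e.symm) z := by
  have z0 : ∀ {a : ℂ → ℝ}, TestOn D a → ∀ z, z ∉ D → a z = 0 := fun h z hz =>
    image_eq_zero_of_notMem_tsupport fun k => hz (h.2.2 k)
  rw [setIntegral_eq_integral_of_forall_compl_eq_zero fun z hz => by simp [z0 hf z hz],
    ← integral_e]
  refine congrArg _ (funext fun z => ?_)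
  rw [setIntegral_eq_integral_of_forall_compl_eq_zero fun w hw => by rw [z0 hg w hw, mul_zero],
    pot, ← integral_mul_const, ← integral_e]
  refine congrArg _ (funext fun w => ?_)
  show _ = gD ψ z w * g (e.symm (e w)) * f (e.symm (e z))
  rw [e.symm_apply_apply, e.symm_apply_apply]
  ring

theorem gr2 : GR2 := by
  intro Φ ψ h f g hf hg
  have hD : IsOpen (e '' dom Φ) :=
    e.toHomeomorph.isOpenMap _ (Φ.isOpenMap _ Metric.isOpen_ball)
  have hb : Bornology.IsBounded (e '' dom Φ) :=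
    (((isCompact_closedBall (0 : ℂ) 1).image Φ.continuous).image e.continuous).isBounded.subset
      (image_mono (image_mono Metric.ball_subset_closedBall))
  have hf' := (testOn_iff _ _).1 hf
  have hg' := (testOn_iff _ _).1 hg
  rw [dbl ψ hf hf, dbl ψ hf hg, ← V_eq, ← V_eq, ← V_eq]
  exact ⟨(sol_pot (unif_of h) hD hb hf').eq_V hD hb hf', pot_V (unif_of h) hD hb hf' hg'⟩

end Vale.Agent.P153DG
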