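import Vale.Agent.P153.R2.KAPV.Ker

/-!
Weak solutions of the Poisson equation which decay at the boundary give the variance.
-/

set_option autoImplicit false

namespace Vale.Agent.P153DG

open Filter Topology Set MeasureTheory
open Vale.Agent.P145.PT Vale.Agent.P153.R2.FLDI Vale.Agent.P153.R2.KAPV

variable {D : Set (ℝ × ℝ)} {f g θ χ N : ℝ × ℝ → ℝ} {T S : (ℝ × ℝ → ℝ) → ℝ}

/-- `T` solves `Δ T = - g` and decays at the boundary. -/
structure Sol (D : Set (ℝ × ℝ)) (g : ℝ × ℝ → ℝ) (T : (ℝ × ℝ → ℝ) → ℝ) : Prop where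
  l2 : ∃ C, L2Fn D T C
  eq : ∀ ψ, TestOn D ψ → T (lap ψ) = - ∫ z, ψ z * g z
  dec : DecE D ∅ T

theorem Sol.comb (hT : Sol D f T) (hS : Sol D g S) (hf : TestOn D f) (hg : TestOn D g) (c : ℝ) :
    Sol D (fun z => f z + c * g z) fun θ => T θ + c * S θ := by
  obtain ⟨C, hC⟩ := hT.l2
  obtain ⟨C', hC'⟩ := hS.l2
  refine ⟨⟨_, hC.comb hC' c⟩, fun ψ hψ => ?_, hT.dec.comb hS.dec c⟩
  have e : (fun z => ψ z * (f z + c * g z)) = fun z => ψ z * f z + c * (ψ z * g z) :=
    funext fun z => by ring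
  rw [hT.eq ψ hψ, hS.eq ψ hψ, e, integral_add (hψ.intMul hf.cont)
    ((hψ.intMul hg.cont).const_mul c), integral_const_mul]
  ring

theorem Sol.neg (hT : Sol D f T) : Sol D (fun z => -f z) fun θ => -T θ := by
  obtain ⟨C, hC⟩ := hT.l2
  refine ⟨⟨_, hC.neg⟩, fun ψ hψ => ?_, hT.dec.neg⟩
  simp only [hT.eq ψ hψ, mul_neg, integral_neg]

theorem sol_of (hD : IsOpen D) (hb : Bornology.IsBounded D)
    (hN : AEStronglyMeasurable N (volume.restrict D)) {K : ℝ} (hK : ∀ z ∈ D, |N z| ≤ K)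
    (heq : ∀ ψ, TestOn D ψ → ∫ z, N z * lap ψ z = - ∫ z, ψ z * f z)
    (hdec : ∀ ε : ℝ, 0 < ε → ∃ r : ℝ, 0 < r ∧ ∀ x ∈ D, dd D x < r → |N x| ≤ ε) :
    Sol D f fun θ => ∫ z, N z * θ z := by
  have hN2 : IntegrableOn (fun z => N z ^ 2) D := by
    have hc : Integrable (fun _ : ℝ × ℝ => K ^ 2) (volume.restrict D) :=
      integrableOn_const (hs := hb.measure_lt_top.ne)
    refine hc.mono' (hN.pow 2) ?_
    refine (ae_restrict_iff' hD.measurableSet).2 (ae_of_all _ fun z hz => ?_)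
    rw [Real.norm_eq_abs, abs_pow]
    exact pow_le_pow_left₀ (abs_nonneg _) (hK z hz) 2
  have havg : ∀ x ∈ D, ∀ ε : ℝ, (∀ z ∈ D, dist z x ≤ dd D x / 2 → |N z| ≤ ε) →
      |∫ z, N z * bump (dd D x / 2) x z| ≤ ε := by
    intro x hx ε h
    have hx0 : 0 < dd D x := (dd_pos hD hb).2 hx
    have hbx : TestOn D (bump (dd D x / 2) x) := bump_test (by linarith) (ball_sub (by linarith))
    refine (abs_integral_le_integral_abs).trans ?_
    have e4 : ε = ∫ z, ε * bump (dd D x / 2) x z := by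
      rw [integral_const_mul, bump_int (by linarith), mul_one]
    rw [e4]
    refine integral_mono_of_nonneg (ae_of_all _ fun z => abs_nonneg _) (hbx.int.const_mul ε)
      (ae_of_all _ fun z => ?_)
    simp only
    rw [abs_mul, abs_of_nonneg (bump_nonneg _ _ z)]
    by_cases hz : bump (dd D x / 2) x z = 0
    · simp [hz]
    · obtain ⟨h1, h2⟩ := bump_mem hD hb hx hz
      exact mul_le_mul_of_nonneg_right (h z h1 h2) (bump_nonneg _ _ _)
  refine ⟨⟨_, l2fn_int hN hN2⟩, heq, fun ε ρ hε _ => ?_,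
    ⟨K, 1, one_pos, fun x hx _ => havg x hx K fun z hz _ => hK z hz⟩⟩
  obtain ⟨r, hr, h⟩ := hdec ε hε
  refine ⟨r / 2, by linarith, fun x hx hxr _ => havg x hx ε fun z hz hzx => h z hz ?_⟩
  have h1 := dd_le_add D z x
  linarith

theorem lap_swap (hf : TestOn D f) (hg : TestOn D g) :
    ∫ z, f z * lap g z = ∫ z, g z * lap f z := by
  rw [green_id hf hg.sm, green_id hg hf.sm]
  simp only [mul_comm]

theorem sol_test (hD : IsOpen D) (hb : Bornology.IsBounded D) (hχ : TestOn D χ) :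
    Sol D (fun z => -lap χ z) fun θ => ∫ z, χ z * θ z := by
  obtain ⟨K, hK⟩ := hχ.cs.exists_bound_of_continuous hχ.cont
  obtain ⟨r, hr, h⟩ := exists_low hD hb hχ
  refine sol_of hD hb hχ.cont.aestronglyMeasurable (fun z _ => hK z) (fun ψ hψ => ?_)
    fun ε hε => ⟨r, hr, fun x _ hx => by rw [h x hx.le, abs_zero]; exact hε.le⟩
  simp only [lap_swap hχ hψ, mul_neg, integral_neg, neg_neg]

theorem V_neg (hb : Bornology.IsBounded D) (hf : TestOn D f) : V D (fun z => -f z) ≤ V D f :=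
  V_le fun ψ hψ => by
    have h1 := pair_le hb hf hψ
    have h2 := V_nonneg hb hf
    have h3 := energy_nonneg ψ
    have h4 := abs_le_of_sq_le_sq' (a := ∫ z, f z * ψ z) (b := (V D f + energy ψ) / 2)
      (by nlinarith [sq_nonneg (V D f - energy ψ)]) (by positivity)
    simp only [neg_mul, integral_neg]
    linarith [h4.1]

theorem V_lap (hb : Bornology.IsBounded D) (hf : TestOn D f) (hχ : TestOn D χ) :
    V D (fun z => f z + -1 * -lap χ z) ≤ V D f - ((2 * ∫ z, f z * χ z) - energy χ) :=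
  V_le fun ψ hψ => by
    have h1 := le_V hb hf (hψ.add hχ)
    have e1 : (fun z => (ψ z + χ z) * lap (fun z => ψ z + χ z) z) = fun z =>
        ψ z * lap ψ z + χ z * lap χ z + (ψ z * lap χ z + χ z * lap ψ z) :=
      funext fun z => by rw [lap_add hψ.sm hχ.sm]; ring
    have e2 : (fun z => (f z + -1 * -lap χ z) * ψ z) = fun z => f z * ψ z + ψ z * lap χ z :=
      funext fun z => by ring
    have i1 : Integrable fun z => ψ z * lap ψ z + χ z * lap χ z :=
      (hψ.intMul hψ.lap.cont).add (hχ.intMul hχ.lap.cont)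
    have i2 : Integrable fun z => ψ z * lap χ z + χ z * lap ψ z :=
      (hψ.intMul hχ.lap.cont).add (hχ.intMul hψ.lap.cont)
    simp only [mul_add] at h1
    rw [energy_eq (hψ.add hχ), e1, integral_add (hf.intMul hψ.cont) (hf.intMul hχ.cont),
      integral_add i1 i2,
      integral_add (hψ.intMul hψ.lap.cont) (hχ.intMul hχ.lap.cont),
      integral_add (hψ.intMul hχ.lap.cont) (hχ.intMul hψ.lap.cont), lap_swap hχ hψ] at h1
    rw [e2, integral_add (hf.intMul hψ.cont) (hψ.intMul hχ.lap.cont), energy_eq hψ, energy_eq hχ]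
    linarith

theorem Sol.le (hD : IsOpen D) (hb : Bornology.IsBounded D) (hT : Sol D g T) (hg : TestOn D g)
    (hθ : TestOn D θ) (h0 : ∀ z, 0 ≤ θ z) {η : ℝ} (hη : 0 < η) (hv : V D g ≤ η) :
    T θ ≤ √(V D θ * (3 * η)) + η := by
  obtain ⟨C, hC⟩ := hT.l2
  obtain ⟨ψ, hψ, h1, h2⟩ := lemB hD hb hC hg hT.eq (fun ε hε => by
    obtain ⟨r, hr, h⟩ := hT.dec.dec ε 1 hε one_pos
    exact ⟨r, hr, fun x hx hxr => (le_abs_self _).trans
      (h x hx hxr fun e he => absurd he (Finset.notMem_empty e))⟩) hθ h0 hη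
  have h3 := le_V hb hg hψ
  have h4 : ∫ z, θ z * ψ z ≤ √(V D θ * (3 * η)) := Real.le_sqrt_of_sq_le ((pair_le hb hθ hψ).trans
    (mul_le_mul_of_nonneg_left (by linarith) (V_nonneg hb hθ)))
  linarith

theorem Sol.eq_V (hD : IsOpen D) (hb : Bornology.IsBounded D) (hT : Sol D f T) (hf : TestOn D f) :
    T f = V D f := by
  obtain ⟨p, m, hp, hm, p0, m0, hpm⟩ := exists_decomp hD hb hf
  have key : ∀ η : ℝ, 0 < η → |T f - V D f| ≤
      √(V D p * (3 * η)) + η + (√(V D m * (3 * η)) + η) + √(V D f * η) := fun η hη => by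
    have : Nonempty {ψ : ℝ × ℝ → ℝ // TestOn D ψ} := ⟨⟨_, TestOn.zero D⟩⟩
    obtain ⟨⟨χ, hχ⟩, h1⟩ := exists_lt_of_lt_ciSup (sub_lt_self (V D f) hη)
    have h1 : V D f - η < (2 * ∫ z, f z * χ z) - energy χ := h1
    have hS := hT.comb (sol_test hD hb hχ) hf hχ.lap.neg (-1)
    have hg := hf.add (hχ.lap.neg.smul (-1))
    have hv := (V_lap hb hf hχ).trans (by linarith : _ ≤ η)
    have hv' := (V_neg hb hg).trans hv
    have a1 := hS.le hD hb hg hp p0 hη hv
    have a2 := hS.le hD hb hg hm m0 hη hv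
    have a3 := hS.neg.le hD hb hg.neg hp p0 hη hv'
    have a4 := hS.neg.le hD hb hg.neg hm m0 hη hv'
    obtain ⟨C, hC⟩ := hS.l2
    have e := hC.sub' hp hm
    rw [← (funext hpm : f = fun z => p z - m z)] at e
    have b : |(∫ z, f z * χ z) - V D f| ≤ √(V D f * η) := Real.abs_le_sqrt (by
      have h2 := pair_le hb hf hχ
      have h3 := mul_le_mul_of_nonneg_left h1.le (V_nonneg hb hf)
      nlinarith)
    have c : ∫ z, χ z * f z = ∫ z, f z * χ z := by simp only [mul_comm]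
    have b' := abs_le.1 b
    simp only [c] at e
    rw [abs_le]
    constructor <;> linarith [b'.1, b'.2]
  have ht : Tendsto (fun η : ℝ => √(V D p * (3 * η)) + η + (√(V D m * (3 * η)) + η) +
      √(V D f * η)) (𝓝[>] 0) (𝓝 0) :=
    (Continuous.tendsto' (by fun_prop) _ _ (by simp)).mono_left nhdsWithin_le_nhds
  exact sub_eq_zero.1 (abs_nonpos_iff.1 (ge_of_tendsto ht
    (eventually_mem_nhdsWithin.mono fun η hη => key η hη)))

variable {F G : ℂ → ℂ}

theorem sol_pot (h : Unif D F G) (hD : IsOpen D) (hb : Bornology.IsBounded D) (hf : TestOn D f) :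
    Sol D f fun θ => ∫ z, pot G f z * θ z := by
  obtain ⟨K, hK⟩ := h.pot_bdd hD hb hf
  exact sol_of hD hb (h.pot_meas hD hf) hK (fun ψ hψ => h.pot_weak hD hb hf hψ)
    (h.pot_dec hD hb hf)

theorem gk_comm (a b : ℂ) : gk a b = gk b a := by
  rw [gk, gk, norm_sub_rev a b, ← Complex.norm_conj (a - _), map_sub, Complex.conj_conj,
    norm_sub_rev _ b]

theorem int_prod (h : Unif D F G) (hD : IsOpen D) (hf : TestOn D f) (hg : TestOn D g) :
    Integrable (fun p : (ℝ × ℝ) × (ℝ × ℝ) => gk (Gt D G p.1) (Gt D G p.2) * g p.2 * f p.1)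
      (volume.prod volume) := by
  obtain ⟨A, hA, hsing⟩ := h.gk_sing (hf.cs.isCompact.union hg.cs) (union_subset hf.2.2 hg.2.2)
  have hgi := Vale.Agent.P152.GFF.S.green_integrable (f := f) (g := g) hf.cont hg.cont
    hf.cs hg.cs
  have hpi : Integrable (fun p : (ℝ × ℝ) × (ℝ × ℝ) => A * (|f p.1| * |g p.2|)) :=
    ((hf.int.abs).mul_prod (hg.int.abs)).const_mul A
  refine (hpi.add hgi.abs).mono' ?_ (ae_of_all _ fun p => ?_)
  · exact (((h.kk_meas hD).mul (hg.cont.measurable.comp measurable_snd)).mul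
      (hf.cont.measurable.comp measurable_fst)).aestronglyMeasurable
  · simp only [Pi.add_apply]
    rw [Real.norm_eq_abs]
    by_cases hz : f p.1 = 0
    · rw [hz, mul_zero, abs_zero]
      positivity
    by_cases hy : g p.2 = 0
    · rw [hy, mul_zero, zero_mul, abs_zero]
      positivity
    have hz' : p.1 ∈ tsupport f := subset_tsupport _ hz
    have hy' : p.2 ∈ tsupport g := subset_tsupport _ hy
    rw [Gt_mem (hf.2.2 hz'), Gt_mem (hg.2.2 hy'), abs_mul, abs_mul,
      abs_of_nonneg (gk_nonneg (h.Gm _ (hf.2.2 hz')) (h.Gm _ (hg.2.2 hy')))]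
    have h4 := hsing _ (Or.inl hz') _ (Or.inr hy')
    rw [abs_mul, abs_mul]
    calc gk (G (toC p.1)) (G (toC p.2)) * |g p.2| * |f p.1|
        ≤ (A + |Vale.Agent.P152.GFF.S.green p.1 p.2|) * |g p.2| * |f p.1| := by gcongr
      _ = _ := by ring

theorem pot_t (hf : TestOn D f) (hg : TestOn D g) : ∫ z, pot G g z * f z =
    ∫ z, ∫ y, gk (Gt D G z) (Gt D G y) * g y * f z := by
  refine congrArg _ (funext fun z => ?_)
  rw [integral_mul_const]
  by_cases hz : z ∈ D
  · rw [pot_eq_t hg hz]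
  · rw [zero_off hf hz, mul_zero, mul_zero]

theorem pot_symm (h : Unif D F G) (hD : IsOpen D) (hf : TestOn D f) (hg : TestOn D g) :
    ∫ z, pot G g z * f z = ∫ z, pot G f z * g z := by
  rw [pot_t hf hg, pot_t hg hf, integral_integral_swap (int_prod h hD hf hg)]
  refine congrArg _ (funext fun z => congrArg _ (funext fun y => ?_))
  rw [gk_comm, mul_right_comm]

theorem pot_V (h : Unif D F G) (hD : IsOpen D) (hb : Bornology.IsBounded D) (hf : TestOn D f)
    (hg : TestOn D g) : ∫ z, pot G g z * f z =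
      (V D (fun z => f z + g z) - V D (fun z => f z - g z)) / 4 := by
  have key : ∀ c : ℝ, V D (fun z => f z + c * g z) = (∫ z, pot G f z * f z) +
      2 * c * (∫ z, pot G g z * f z) + c ^ 2 * ∫ z, pot G g z * g z := fun c => by
    obtain ⟨C, hC⟩ := (sol_pot h hD hb hf).l2
    obtain ⟨C', hC'⟩ := (sol_pot h hD hb hg).l2
    rw [← ((sol_pot h hD hb hf).comb (sol_pot h hD hb hg) hf hg c).eq_V hD hb
      (hf.add (hg.smul c)), hC.add f _ hf (hg.smul c), hC'.add f _ hf (hg.smul c),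
      hC.smul c g hg, hC'.smul c g hg, pot_symm h hD hf hg]
    ring
  have k1 := key 1
  have k2 := key (-1)
  simp only [one_mul, neg_mul, ← sub_eq_add_neg] at k1 k2
  rw [k1, k2]
  ring

end Vale.Agent.P153DG
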